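import Vale.Agent.Results.P228.NoSmallSubgroups
import Vale.Agent.P228Z.Lie

/-!
# P228: the Hilbert-Smith conjecture as posed

Every locally compact group acting faithfully and continuously on a connected topological manifold
is a Lie group: its topology carries an atlas with values in some `ℝ ^ d` for which it is a smooth
manifold with smooth multiplication and inversion.
-/

namespace Vale.Agent.Results.P228.ActingGroupIsLie

open scoped Manifold ContDiff

universe u v

theorem result (n : ℕ) (M : Type u) [TopologicalSpace M] [T2Space M] [ConnectedSpace M]
    [ChartedSpace (EuclideanSpace ℝ (Fin n)) M]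
    (G : Type v) [Group G] [TopologicalSpace G] [IsTopologicalGroup G] [T2Space G]
    [LocallyCompactSpace G] [MulAction G M] [ContinuousSMul G M] [FaithfulSMul G M] :
    ∃ (d : ℕ) (_ : ChartedSpace (EuclideanSpace ℝ (Fin d)) G),
      LieGroup (modelWithCornersSelf ℝ (EuclideanSpace ℝ (Fin d))) ∞ G :=
  Vale.Agent.P228Z.lie_of_nss G
    ((Vale.Agent.Results.P228.NoSmallSubgroups.result.{u, v}.2.1 n M G).2.1 inferInstance)

end Vale.Agent.Results.P228.ActingGroupIsLie
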